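import Mathlib
import Vale.Agent.P204.General.Forms
import Vale.Agent.P204.General.Basic.Stokes
import Vale.Agent.P204.General.Dual

/-!
# P204 on a closed four-manifold: measurability of the pointwise quantities
-/

open MeasureTheory Matrix Filter Set
open scoped ContDiff Topology

namespace Vale.Agent.P204.General

open Vale.Agent.P204.Torus

variable {N K : ℕ} (A : Atlas N K)

theorem dens_continuous (d : Fin K) : Continuous (A.dens d) := by
  refine continuous_finsetSum _ fun c _ => ?_
  refine ((A.chi_smooth c).continuous.comp (A.psi_cont d)).mul (Continuous.matrix_det ?_)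
  have := fun a i => (A.dmat_smooth d a i).continuous
  refine continuous_matrix fun i k => ?_
  simp only [Matrix.mul_apply]
  fun_prop

variable {Z : Type*} [MeasurableSpace Z] {μ : Measure Z} {f : Z → Amb N}

theorem aem_pullAt {g : Z → MN N} (hf : AEMeasurable f μ)
    (hg : ∀ a b, AEMeasurable (fun z => g z a b) μ) (d : Fin K) (i k : Fin 4) :
    AEMeasurable (fun z => A.pullAt d (g z) (A.phi d (f z)) i k) μ := by
  have hD : ∀ a l, AEMeasurable (fun z => A.dmat d (A.phi d (f z)) a l) μ := fun a l =>
    ((A.dmat_smooth d a l).continuous.comp (A.phi_cont d)).measurable.comp_aemeasurable hf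
  simp only [A.pullAt_apply]
  exact Finset.aemeasurable_fun_sum _ fun b _ =>
    (Finset.aemeasurable_fun_sum _ fun a _ => (hD a i).mul (hg a b)).mul (hD b k)

theorem aem_wedgePt {g g' : Z → MN N} (hf : AEMeasurable f μ)
    (hg : ∀ a b, AEMeasurable (fun z => g z a b) μ) (hg' : ∀ a b, AEMeasurable (fun z => g' z a b) μ) :
    AEMeasurable (fun z => A.wedgePt (f z) (g z) (g' z)) μ := by
  simp only [Atlas.wedgePt, wedge]
  refine Finset.aemeasurable_fun_sum _ fun d _ => ?_
  have h1 := aem_pullAt A hf hg d
  have h2 := aem_pullAt A hf hg' d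
  refine ((A.chi_cont d).measurable.comp_aemeasurable hf).mul (AEMeasurable.div ?_ ?_)
  · exact ((((((h1 0 1).mul (h2 2 3)).sub ((h1 0 2).mul (h2 1 3))).add ((h1 0 3).mul (h2 1 2))).add
      ((h1 1 2).mul (h2 0 3))).sub ((h1 1 3).mul (h2 0 2))).add ((h1 2 3).mul (h2 0 1))
  · exact ((dens_continuous A d).comp (A.phi_cont d)).measurable.comp_aemeasurable hf

theorem aem_sN {g : Z → MN N} (hf : AEMeasurable f μ)
    (hg : ∀ a b, AEMeasurable (fun z => g z a b) μ) :
    AEMeasurable (fun z => A.sN (f z) (g z)) μ := by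
  simp only [← A.sqrt_sqX, Atlas.sqX, sq2]
  refine Real.continuous_sqrt.measurable.comp_aemeasurable ?_
  exact Finset.aemeasurable_fun_sum _ fun d _ =>
    ((A.chi_cont d).measurable.comp_aemeasurable hf).mul
      (Finset.aemeasurable_fun_sum _ fun i _ => Finset.aemeasurable_fun_sum _ fun k _ =>
        (aem_pullAt A hf hg d i k).pow_const 2)

/-- An entrywise measurable form value keeps this property under the splitting. -/
theorem aem_inv11X {J : Amb N → MN N} {g : Z → MN N}
    (hJ : ∀ a b, AEMeasurable (fun z => J (f z) a b) μ)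
    (hg : ∀ a b, AEMeasurable (fun z => g z a b) μ) (a b : Fin N) :
    AEMeasurable (fun z => inv11X J (f z) (g z) a b) μ := by
  simp only [inv11X, Matrix.smul_apply, Matrix.add_apply, Matrix.mul_apply, Matrix.transpose_apply,
    smul_eq_mul]
  refine ((hg a b).add ?_).const_mul _
  exact Finset.aemeasurable_fun_sum _ fun c _ =>
    (Finset.aemeasurable_fun_sum _ fun d _ => (hJ d a).mul (hg d c)).mul (hJ c b)

theorem J_aem {J : Amb N → MN N} (hJ : IsACS A J) (a b : Fin N) :
    AEMeasurable (fun x => J x a b) A.vol := by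
  have h := (Atlas.J_continuousOn (A := A) hJ a b).aemeasurable (μ := A.vol) (measurableSet_X A)
  rwa [restrict_X A] at h

/-- The size of a smooth form is bounded on the manifold. -/
theorem exists_test_bound {a : Amb N → MN N} (ha : IsTestX A a) :
    ∃ B, 0 ≤ B ∧ ∀ x ∈ A.X, A.sN x (a x) ≤ B := by
  have hc : ContinuousOn (fun x => A.sN x (a x)) A.X := by
    have h : ContinuousOn (fun x => ∑ d, A.chi d x * sq2 (A.pull d a (A.phi d x))) A.X := by
      refine continuousOn_finsetSum _ fun d _ => A.continuousOn_term d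
        (F := fun p => sq2 (A.pull d a p)) ?_
      have := fun i k => (ha.smooth d i k).continuousOn
      simp only [sq2]
      fun_prop
    refine (Real.continuous_sqrt.comp_continuousOn h).congr fun x hx => ?_
    simp only [Function.comp_def, ← A.sqrt_sqX, Atlas.sqX]
    congr 1
    refine Finset.sum_congr rfl fun d _ => ?_
    by_cases hd : A.chi d x = 0
    · simp [hd]
    · rw [Atlas.pull, A.psi_phi d (A.chi_image hx hd)]
  obtain ⟨B, hB⟩ := A.compact.exists_bound_of_continuousOn hc
  exact ⟨max B 0, le_max_right _ _, fun x hx =>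
    ((le_abs_self _).trans (hB x hx)).trans (le_max_left _ _)⟩

/-- A taming form is positive on the unit tangent vectors. -/
theorem line_pos {J : Amb N → MN N} (hJ : IsACS A J) {om : Amb N → MN N} (ht : TamesX A J om)
    {z : Amb N × Amb N} (hz : z ∈ A.unitTan) : 0 < z.2 ⬝ᵥ (om z.1 *ᵥ (J z.1 *ᵥ z.2)) := by
  obtain ⟨hx, hv, h1⟩ := hz
  obtain ⟨c, -, hc⟩ := A.exists_chart hx
  have hb := A.mem_box_image hc
  rw [Atlas.line_eq hJ om hv c hb]
  refine ht c _ (A.phi_mem c hb) _ fun h0 => ?_
  have h := A.tan_in_chart hv c hb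
  rw [h0, mulVec_zero] at h
  rw [← h, dotProduct_zero] at h1
  exact zero_ne_one h1

end Vale.Agent.P204.General
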