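import Mathlib
import Vale.Agent.P204.General.Assembly.Meas
import Vale.Agent.P204.General.Stmts
import Vale.Agent.P204.Est.Final

/-!
# P204 on a closed four-manifold: the bounded distance and the kernel pairing
-/

open MeasureTheory Matrix Filter Set
open scoped ContDiff Topology

namespace Vale.Agent.P204.General

open Vale.Agent.P204.Torus

variable {N K : ℕ} (A : Atlas N K)

/-- The ambient distance, cut off at `D`. -/
noncomputable def rD (D : ℝ) (x y : Amb N) : ℝ := min ‖x - y‖ D

theorem geom_rD {D Cv : ℝ} (hD : 1 ≤ D) (hCv : 0 ≤ Cv)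
    (hb : ∀ x r, 0 ≤ r → (A.vol {y | ‖x - y‖ ≤ r}).toReal ≤ Cv * r ^ 4) :
    Est.Geom A.vol (rD (N := N) D) 1 (Cv + A.vol.real univ) D where
  one_le := le_rfl
  A_nonneg := add_nonneg hCv measureReal_nonneg
  meas := by
    exact ((continuous_fst.sub continuous_snd).norm.min continuous_const).measurable
  nonneg x y := le_min (norm_nonneg _) (zero_le_one.trans hD)
  le_D x y := min_le_right _ _
  symm x y := by simp only [rD, norm_sub_rev]
  tri x y z := by
    rw [one_mul]
    simp only [rD]
    have h := norm_sub_le_norm_sub_add_norm_sub x y z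
    have h1 := norm_nonneg (x - y)
    have h2 := norm_nonneg (y - z)
    rcases min_cases ‖x - y‖ D with ⟨e1, -⟩ | ⟨e1, -⟩ <;>
      rcases min_cases ‖y - z‖ D with ⟨e2, -⟩ | ⟨e2, -⟩ <;>
      rw [e1, e2] <;> linarith [min_le_left ‖x - z‖ D, min_le_right ‖x - z‖ D]
  ball x t ht := by
    rcases lt_or_ge t D with h | h
    · refine le_trans (le_of_eq ?_) ((hb x t ht.le).trans
        (mul_le_mul_of_nonneg_right (le_add_of_nonneg_right measureReal_nonneg) (by positivity)))
      rw [measureReal_def]
      congr 2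
      ext y
      simp only [rD, Set.mem_ofPred_eq, min_le_iff]
      exact ⟨fun h' => h'.resolve_right (not_le.2 h), Or.inl⟩
    · refine (measureReal_mono (Set.subset_univ _)).trans ?_
      calc A.vol.real univ = A.vol.real univ * 1 := (mul_one _).symm
        _ ≤ A.vol.real univ * t ^ 4 :=
            mul_le_mul_of_nonneg_left (one_le_pow₀ (hD.trans h)) measureReal_nonneg
        _ ≤ _ := mul_le_mul_of_nonneg_right (le_add_of_nonneg_left hCv) (by positivity)

theorem kern_le_ker3 {D ε : ℝ} (hε : 0 < ε) (hD : 0 ≤ D) (x y : Amb N) :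
    kern ε ‖x - y‖ ≤ Est.ker 3 ε (rD D x y) := by
  refine le_trans ?_ (Est.ker_mono (by norm_num : 3 ≤ 5) hε _)
  simp only [kern, Est.ker]
  have h0 : 0 ≤ rD D x y := le_min (norm_nonneg _) hD
  have h1 : rD D x y ≤ ‖x - y‖ := min_le_left _ _
  gcongr

theorem kern_nonneg' (ε t : ℝ) : 0 ≤ kern ε t := Est.ker_nonneg 5 ε t

/-- The set where the kernel is used. -/
def kset : Set (Amb N × (Amb N × Amb N)) := A.X ×ˢ A.unitTan

theorem isCompact_kset : IsCompact (kset A) := A.compact.prod A.isCompact_unitTan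

open Classical in
/-- The kernel extended by zero. -/
noncomputable def kext (kf : Amb N → Amb N × Amb N → MN N) (x : Amb N) (p : Amb N × Amb N) : MN N :=
  if (x, p) ∈ kset A then kf x p else 0

variable {J : Amb N → MN N} {c C ε : ℝ} {G : (Amb N → MN N) → (Amb N → MN N)}
  {kf : Amb N → Amb N × Amb N → MN N} {w : Amb N → Amb N → ℝ}
  (S : IsSmoothing A J c C ε G kf w) (hJ : IsACS A J)
include S

theorem kext_skew (x : Amb N) (p : Amb N × Amb N) :
    (kext A kf x p)ᵀ = -kext A kf x p := by
  unfold kext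
  split_ifs
  · exact S.skew x p
  · simp

theorem kext_measurable (a b : Fin N) :
    Measurable fun z : Amb N × (Amb N × Amb N) => kext A kf z.1 z.2 a b := by
  classical
  have hc : ContinuousOn (fun z : Amb N × (Amb N × Amb N) => kf z.1 z.2 a b) (kset A) := by
    rw [continuousOn_iff_continuous_domRestrict]
    exact (S.cont a b).comp ((((continuous_fst.comp continuous_subtype_val).subtype_mk
      fun z : kset A => z.2.1).prodMk ((continuous_snd.comp continuous_subtype_val).subtype_mk
      fun z : kset A => z.2.2)))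
  have h := hc.measurable_piecewise (g := fun _ => (0 : ℝ)) continuousOn_const
    (isCompact_kset A).isClosed.measurableSet
  refine (congrArg Measurable ?_).mp h
  funext z
  by_cases hz : z ∈ kset A
  · rw [Set.piecewise_eq_of_mem _ _ _ hz, kext, if_pos hz]
  · rw [Set.piecewise_eq_of_notMem _ _ _ hz, kext, if_neg hz]; rfl

theorem kext_size (hε : 0 < ε) (x : Amb N) (p : Amb N × Amb N) :
    A.sN x (kext A kf x p) ≤ |C| * kern ε ‖x - p.1‖ ∧
      A.sN x (antiX J x (kext A kf x p)) ≤ |C| * ε * kern ε ‖x - p.1‖ := by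
  have hk := kern_nonneg' ε ‖x - p.1‖
  unfold kext
  split_ifs with h
  · rw [← A.sqrt_sqX, ← A.sqrt_sqX]
    refine ⟨(Real.sqrt_le_sqrt (S.size x h.1 p h.2)).trans ?_,
      (Real.sqrt_le_sqrt (S.anti x h.1 p h.2)).trans ?_⟩
    · rw [Real.sqrt_sq_eq_abs, abs_mul, abs_of_nonneg hk]
    · rw [Real.sqrt_sq_eq_abs, abs_mul, abs_mul, abs_of_nonneg hk, abs_of_pos hε]
  · have h0 : A.sN x (0 : MN N) = 0 := by simpa using A.sN_smul x 0 0
    have h1 : antiX J x (0 : MN N) = 0 := by simp [antiX]
    rw [h1, h0]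
    exact ⟨mul_nonneg (abs_nonneg _) hk, mul_nonneg (mul_nonneg (abs_nonneg _) hε.le) hk⟩

end Vale.Agent.P204.General
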