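import Mathlib
import Vale.Agent.P204.General.Assembly.Setup

/-!
# P204 on a closed four-manifold: the pairings with the smoothed current
-/

open MeasureTheory Matrix Filter Set
open scoped ContDiff Topology

namespace Vale.Agent.P204.General

open Vale.Agent.P204.Torus

variable {N K : ℕ} (A : Atlas N K)

/-- The pairing of two smoothed atoms. -/
noncomputable def qPair (kf : Amb N → Amb N × Amb N → MN N) (p q : Amb N × Amb N) : ℝ :=
  A.wedgeInt (fun x => kext A kf x p) (fun x => kext A kf x q)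

/-- The pairing of a smoothed atom with a form. -/
noncomputable def vPair (kf : Amb N → Amb N × Amb N → MN N) (V : Amb N → MN N)
    (p : Amb N × Amb N) : ℝ :=
  A.wedgeInt V (fun x => kext A kf x p)

theorem kern_le_inv {ε : ℝ} (hε : 0 < ε) (t : ℝ) : kern ε t ≤ 1 / ε ^ 4 := Est.ker_le 5 hε t

theorem kext_eq_ae (kf : Amb N → Amb N × Amb N → MN N) {p : Amb N × Amb N} (hp : p ∈ A.unitTan) :
    ∀ᵐ x ∂A.vol, kext A kf x p = kf x p :=
  (ae_mem_X A).mono fun x hx => by rw [kext, if_pos (show (x, p) ∈ kset A from ⟨hx, hp⟩)]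

theorem qPair_eq (kf : Amb N → Amb N × Amb N → MN N) {p q : Amb N × Amb N} (hp : p ∈ A.unitTan)
    (hq : q ∈ A.unitTan) :
    qPair A kf p q = A.wedgeInt (fun x => kf x p) (fun x => kf x q) := by
  refine integral_congr_ae ?_
  filter_upwards [kext_eq_ae A kf hp, kext_eq_ae A kf hq] with x h1 h2
  simp only [h1, h2]

theorem vPair_eq (kf : Amb N → Amb N × Amb N → MN N) (V : Amb N → MN N) {p : Amb N × Amb N}
    (hp : p ∈ A.unitTan) : vPair A kf V p = A.wedgeInt V (fun x => kf x p) := by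
  refine integral_congr_ae ?_
  filter_upwards [kext_eq_ae A kf hp] with x h1
  simp only [h1]

variable {J : Amb N → MN N} {c C ε : ℝ} {G : (Amb N → MN N) → (Amb N → MN N)}
  {kf : Amb N → Amb N × Amb N → MN N} {w : Amb N → Amb N → ℝ}
  (S : IsSmoothing A J c C ε G kf w)
include S

theorem qPair_measurable : Measurable (Function.uncurry (qPair A kf)) := by
  have hm : Measurable fun z : Amb N × ((Amb N × Amb N) × (Amb N × Amb N)) =>
      A.wedgePt z.1 (kext A kf z.1 z.2.1) (kext A kf z.1 z.2.2) := by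
    have h1 : ∀ a b, Measurable fun z : Amb N × ((Amb N × Amb N) × (Amb N × Amb N)) =>
        kext A kf z.1 z.2.1 a b := fun a b => (kext_measurable A S a b).comp
      (measurable_fst.prodMk (measurable_fst.comp measurable_snd))
    have h2 : ∀ a b, Measurable fun z : Amb N × ((Amb N × Amb N) × (Amb N × Amb N)) =>
        kext A kf z.1 z.2.2 a b := fun a b => (kext_measurable A S a b).comp
      (measurable_fst.prodMk (measurable_snd.comp measurable_snd))
    have hd : ∀ d, Measurable fun z : Amb N × ((Amb N × Amb N) × (Amb N × Amb N)) =>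
        A.phi d z.1 := fun d => (A.phi_cont d).measurable.comp measurable_fst
    have hD : ∀ d a l, Measurable fun z : Amb N × ((Amb N × Amb N) × (Amb N × Amb N)) =>
        A.dmat d (A.phi d z.1) a l := fun d a l =>
      (A.dmat_smooth d a l).continuous.measurable.comp (hd d)
    simp only [Atlas.wedgePt, wedge, A.pullAt_apply]
    refine Finset.measurable_fun_sum _ fun d _ => ?_
    refine ((A.chi_cont d).measurable.comp measurable_fst).mul (Measurable.div ?_
      ((dens_continuous A d).measurable.comp (hd d)))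
    have e1 : ∀ i k, Measurable fun z : Amb N × ((Amb N × Amb N) × (Amb N × Amb N)) =>
        ∑ b, (∑ a, A.dmat d (A.phi d z.1) a i * kext A kf z.1 z.2.1 a b) *
          A.dmat d (A.phi d z.1) b k := fun i k =>
      Finset.measurable_fun_sum _ fun b _ =>
        (Finset.measurable_fun_sum _ fun a _ => (hD d a i).mul (h1 a b)).mul (hD d b k)
    have e2 : ∀ i k, Measurable fun z : Amb N × ((Amb N × Amb N) × (Amb N × Amb N)) =>
        ∑ b, (∑ a, A.dmat d (A.phi d z.1) a i * kext A kf z.1 z.2.2 a b) *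
          A.dmat d (A.phi d z.1) b k := fun i k =>
      Finset.measurable_fun_sum _ fun b _ =>
        (Finset.measurable_fun_sum _ fun a _ => (hD d a i).mul (h2 a b)).mul (hD d b k)
    exact ((((((e1 0 1).mul (e2 2 3)).sub ((e1 0 2).mul (e2 1 3))).add ((e1 0 3).mul (e2 1 2))).add
      ((e1 1 2).mul (e2 0 3))).sub ((e1 1 3).mul (e2 0 2))).add ((e1 2 3).mul (e2 0 1))
  exact (hm.stronglyMeasurable.integral_prod_left' (μ := A.vol)).measurable

theorem qPair_bound {Cb : ℝ} (hCb : 0 ≤ Cb)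
    (hb : ∀ x ∈ A.X, ∀ M M', |A.wedgePt x M M'| ≤ Cb * A.sN x M * A.sN x M') (hε : 0 < ε)
    (p q : Amb N × Amb N) :
    |qPair A kf p q| ≤ Cb * (|C| * (1 / ε ^ 4)) * (|C| * (1 / ε ^ 4)) * A.vol.real univ := by
  refine (Real.norm_eq_abs _).symm.trans_le
    (norm_integral_le_of_norm_le_const ((ae_mem_X A).mono fun x hx => ?_))
  rw [Real.norm_eq_abs]
  have h : ∀ r : Amb N × Amb N, A.sN x (kext A kf x r) ≤ |C| * (1 / ε ^ 4) := fun r =>
    (kext_size A S hε x r).1.trans (mul_le_mul_of_nonneg_left (kern_le_inv hε _) (abs_nonneg _))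
  refine (hb x hx _ _).trans ?_
  exact mul_le_mul (mul_le_mul_of_nonneg_left (h p) hCb) (h q) (A.sN_nonneg _ _) (by positivity)

theorem qPair_low {D : ℝ} (hD : 0 ≤ D) (hε : 0 < ε) (p q : Amb N × Amb N) :
    -(|C| * Est.neg3 ε (rD D p.1 q.1)) ≤ qPair A kf p q := by
  have hn := Est.neg3_nonneg ε (rD D p.1 q.1)
  by_cases h : p ∈ A.unitTan ∧ q ∈ A.unitTan
  · rw [qPair_eq A kf h.1 h.2]
    refine le_trans (neg_le_neg ?_) (S.pair_low p h.1 q h.2).1
    rw [Est.neg3_eq hε, ← mul_assoc]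
    exact mul_le_mul (mul_le_mul_of_nonneg_right (le_abs_self C) (sq_nonneg _))
      (kern_le_ker3 hε hD _ _) (kern_nonneg' _ _) (by positivity)
  · have h0 : qPair A kf p q = 0 := by
      refine (integral_congr_ae (g := fun _ => (0 : ℝ)) (Eventually.of_forall fun x => ?_)).trans
        (integral_zero _ _)
      rcases not_and_or.1 h with h | h
      · simp [kext, kset, h, Atlas.wedgePt, Atlas.pullAt, wedge]
      · simp [kext, kset, h, Atlas.wedgePt, Atlas.pullAt, wedge]
    rw [h0]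
    exact neg_nonpos.2 (mul_nonneg (abs_nonneg _) hn)

/-- The pairing with a form controlled by a smoothed scalar function is small. -/
theorem vPair_bound {Cb Ca D : ℝ} (hCb : 0 ≤ Cb) (hCa : 0 ≤ Ca) (hD : 0 ≤ D) (hε : 0 < ε)
    (hb : ∀ x ∈ A.X, ∀ M M', |A.wedgePt x M M'| ≤ Cb * A.sN x M * A.sN x M')
    (h0 : ∀ x ∈ A.X, ∀ M M', Mᵀ = -M → M'ᵀ = -M' →
      A.wedgePt x (inv11X J x M) (antiX J x M') = 0)
    (ha : ∀ x ∈ A.X, ∀ M, A.sN x (antiX J x M) ≤ Ca * A.sN x M ∧
      A.sN x (inv11X J x M) ≤ Ca * A.sN x M)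
    {V : Amb N → MN N} (hVm : ∀ a b, AEStronglyMeasurable (fun x => V x a b) A.vol)
    (hVs : ∀ x, (V x)ᵀ = -V x) {U : Amb N → ℝ} (hU : Integrable U A.vol) (hU0 : ∀ x, 0 ≤ U x)
    (hV : ∀ᵐ x ∂A.vol, A.sN x (V x) ≤ |C| * U x ∧ A.sN x (inv11X J x (V x)) ≤ |C| * ε * U x)
    {m : Measure (Amb N × Amb N)} [IsFiniteMeasure m] :
    Integrable (fun p => vPair A kf V p) m ∧
      ∀ f : Amb N × Amb N → ℝ, (∀ p, |f p| ≤ 2) →
        |∫ p, f p * vPair A kf V p ∂m| ≤ 4 * Cb * Ca * C ^ 2 *
          ∫ x, (ε * ∫ p, Est.ker 3 ε (rD D x p.1) ∂m) * U x ∂A.vol := by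
  set K₀ := 2 * Cb * Ca * C ^ 2
  have hK₀ : 0 ≤ K₀ := by positivity
  set g : Amb N × (Amb N × Amb N) → ℝ := fun z =>
    K₀ * (ε * Est.ker 3 ε (rD D z.1 z.2.1) * U z.1)
  have hkm : Measurable fun z : Amb N × (Amb N × Amb N) => Est.ker 3 ε (rD D z.1 z.2.1) := by
    have : Continuous fun z : Amb N × (Amb N × Amb N) => rD D z.1 z.2.1 :=
      (continuous_fst.sub (continuous_fst.comp continuous_snd)).norm.min continuous_const
    exact ((((this.measurable.pow_const 2).div_const (ε ^ 2)).const_add 1).pow_const 3).const_div _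
  have hgi : Integrable g (A.vol.prod m) :=
    ((hU.comp_fst m).bdd_mul (c := ε * (1 / ε ^ 4)) (hkm.const_mul ε).aestronglyMeasurable
      (Eventually.of_forall fun z => by
        rw [Real.norm_eq_abs, abs_of_nonneg (mul_nonneg hε.le (Est.ker_nonneg _ _ _))]
        exact mul_le_mul_of_nonneg_left (Est.ker_le 3 hε _) hε.le)).const_mul K₀
  set F : Amb N × (Amb N × Amb N) → ℝ := fun z => A.wedgePt z.1 (V z.1) (kext A kf z.1 z.2)
  have hFm : AEStronglyMeasurable F (A.vol.prod m) :=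
    (aem_wedgePt A measurable_fst.aemeasurable
      (fun a b => ((hVm a b).comp_fst (ν := m)).aemeasurable)
      (fun a b => (kext_measurable A S a b).aemeasurable)).aestronglyMeasurable
  have hFb : ∀ᵐ z ∂A.vol.prod m, ‖F z‖ ≤ g z := by
    have h := (Measure.quasiMeasurePreserving_fst (μ := A.vol) (ν := m)).ae ((ae_mem_X A).and hV)
    filter_upwards [h] with z ⟨hx, hv1, hv2⟩
    obtain ⟨hk1, hk2⟩ := kext_size A S hε z.1 z.2
    obtain ⟨a1, -⟩ := ha z.1 hx (V z.1)
    obtain ⟨-, a2⟩ := ha z.1 hx (kext A kf z.1 z.2)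
    rw [Real.norm_eq_abs, show F z = _ from
      A.wedgePt_split h0 hx (hVs z.1) (kext_skew A S z.1 z.2)]
    have hk0 := kern_nonneg' ε ‖z.1 - z.2.1‖
    have hU' := hU0 z.1
    have hkk : kern ε ‖z.1 - z.2.1‖ ≤ Est.ker 3 ε (rD D z.1 z.2.1) := kern_le_ker3 hε hD _ _
    have t1 : |A.wedgePt z.1 (antiX J z.1 (V z.1)) (antiX J z.1 (kext A kf z.1 z.2))| ≤
        Cb * (Ca * (|C| * U z.1)) * (|C| * ε * kern ε ‖z.1 - z.2.1‖) :=
      (hb _ hx _ _).trans (mul_le_mul
        (mul_le_mul_of_nonneg_left (a1.trans (mul_le_mul_of_nonneg_left hv1 hCa)) hCb) hk2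
        (A.sN_nonneg _ _) (by positivity))
    have t2 : |A.wedgePt z.1 (inv11X J z.1 (V z.1)) (inv11X J z.1 (kext A kf z.1 z.2))| ≤
        Cb * (|C| * ε * U z.1) * (Ca * (|C| * kern ε ‖z.1 - z.2.1‖)) :=
      (hb _ hx _ _).trans (mul_le_mul (mul_le_mul_of_nonneg_left hv2 hCb)
        (a2.trans (mul_le_mul_of_nonneg_left hk1 hCa)) (A.sN_nonneg _ _) (by positivity))
    refine ((abs_add_le _ _).trans (add_le_add t1 t2)).trans ?_
    calc _ = K₀ * (ε * kern ε ‖z.1 - z.2.1‖ * U z.1) := by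
          simp only [K₀, ← sq_abs C]; ring
      _ ≤ g z := mul_le_mul_of_nonneg_left
          (mul_le_mul_of_nonneg_right (mul_le_mul_of_nonneg_left hkk hε.le) hU') hK₀
  have hFi : Integrable F (A.vol.prod m) := hgi.mono' hFm hFb
  refine ⟨hFi.integral_prod_right, fun f hf => ?_⟩
  have hP : ∀ p, vPair A kf V p = ∫ x, F (x, p) ∂A.vol := fun p => rfl
  calc |∫ p, f p * vPair A kf V p ∂m| ≤ ∫ p, |f p * vPair A kf V p| ∂m :=
        abs_integral_le_integral_abs
    _ ≤ ∫ p, 2 * ∫ x, g (x, p) ∂A.vol ∂m := by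
        refine integral_mono_of_nonneg (Eventually.of_forall fun p => abs_nonneg _)
          (hgi.integral_prod_right.const_mul 2) ?_
        have hs := Measure.ae_ae_of_ae_prod ((Measure.measurePreserving_swap).quasiMeasurePreserving.ae
          hFb : ∀ᵐ z ∂m.prod A.vol, ‖F z.swap‖ ≤ g z.swap)
        filter_upwards [hs, hgi.prod_left_ae] with p hp hgp
        rw [abs_mul, hP]
        exact mul_le_mul (hf p) ((Real.norm_eq_abs _).symm.trans_le
          (norm_integral_le_of_norm_le hgp hp)) (abs_nonneg _) zero_le_two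
    _ = 2 * ∫ x, ∫ p, g (x, p) ∂m ∂A.vol := by
        rw [integral_const_mul, ← integral_integral_swap hgi]
    _ = _ := by
        simp only [g, integral_const_mul, integral_mul_const, K₀]
        ring

end Vale.Agent.P204.General
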