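import Mathlib
import Vale.Agent.P204.General.Assembly.Pairing
import Vale.Agent.P204.General.Basic.Main

/-!
# P204 on a closed four-manifold: tamed implies compatible, from the modules
-/

open MeasureTheory Matrix Filter Set
open scoped ContDiff Topology

namespace Vale.Agent.P204.General

open Vale.Agent.P204.Torus

variable {N K : ℕ} (A : Atlas N K)

/-- A sum of squares of wedge type controls the size of the form. -/
theorem n2_le_of_energy {J : Amb N → MN N} (hJ : IsACS A J) {cb Cb Ca : ℝ} (_hCb : 0 ≤ Cb)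
    (hcb : 0 < cb) (hb : ∀ x ∈ A.X, ∀ M M', |A.wedgePt x M M'| ≤ Cb * A.sN x M * A.sN x M')
    (hlow : ∀ x ∈ A.X, ∀ M, Mᵀ = -M →
      cb * A.sqX x (antiX J x M) ≤ A.wedgePt x (antiX J x M) (antiX J x M))
    (h0 : ∀ x ∈ A.X, ∀ M M', Mᵀ = -M → M'ᵀ = -M' →
      A.wedgePt x (inv11X J x M) (antiX J x M') = 0)
    (ha : ∀ x ∈ A.X, ∀ M, A.sN x (inv11X J x M) ≤ Ca * A.sN x M)
    {V : Amb N → MN N} (hV : L2X A V) (hVs : ∀ x, (V x)ᵀ = -V x) :
    cb / 2 * A.n2 V ^ 2 ≤ A.wedgeInt V V +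
      (cb + Cb) * A.n2 (fun x => inv11X J x (V x)) ^ 2 := by
  have hVm : ∀ a b, AEMeasurable (fun x => V x a b) A.vol := fun a b => (hV.1 a b).aemeasurable
  have hIm : ∀ a b, AEMeasurable (fun x => inv11X J x (V x) a b) A.vol :=
    fun a b => aem_inv11X (f := id) (fun a b => J_aem A hJ a b) hVm a b
  have iV : Integrable (fun x => A.sqX x (V x)) A.vol := hV.2
  have iI : Integrable (fun x => A.sqX x (inv11X J x (V x))) A.vol := by
    refine (iV.const_mul (Ca ^ 2)).mono'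
      (((aem_sN A aemeasurable_id hIm).pow_const 2).congr
        (Eventually.of_forall fun x => A.sq_sN _ _)).aestronglyMeasurable
      ((ae_mem_X A).mono fun x hx => ?_)
    rw [Real.norm_eq_abs, abs_of_nonneg (A.sqX_nonneg _ _), ← A.sq_sN, ← A.sq_sN, ← mul_pow]
    exact pow_le_pow_left₀ (A.sN_nonneg _ _) (ha x hx _) 2
  have iW : Integrable (fun x => A.wedgePt x (V x) (V x)) A.vol :=
    (iV.const_mul Cb).mono' (aem_wedgePt A aemeasurable_id hVm hVm).aestronglyMeasurable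
      ((ae_mem_X A).mono fun x hx => by
        rw [Real.norm_eq_abs, ← A.sq_sN, sq, ← mul_assoc]
        exact hb x hx _ _)
  simp only [Atlas.n2, Real.sq_sqrt (integral_nonneg fun x => A.sqX_nonneg _ _), Atlas.wedgeInt]
  rw [← integral_const_mul, ← integral_const_mul, ← integral_add iW (iI.const_mul _)]
  refine integral_mono_ae (iV.const_mul _) (iW.add (iI.const_mul _)) ((ae_mem_X A).mono fun x hx => ?_)
  show cb / 2 * A.sqX x (V x) ≤
    A.wedgePt x (V x) (V x) + (cb + Cb) * A.sqX x (inv11X J x (V x))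
  rw [A.wedgePt_split h0 hx (hVs x) (hVs x)]
  have h1 := hlow x hx (V x) (hVs x)
  have h2 := (abs_le.1 (hb x hx (inv11X J x (V x)) (inv11X J x (V x)))).1
  have h3 : A.sN x (V x) ≤ A.sN x (inv11X J x (V x)) + A.sN x (antiX J x (V x)) := by
    conv_lhs => rw [← inv_add_anti J x (V x)]
    exact A.sN_add_le _ _ _
  rw [← A.sq_sN] at h1
  rw [← A.sq_sN, ← A.sq_sN]
  have h4 : A.sN x (V x) ^ 2 ≤
      2 * A.sN x (inv11X J x (V x)) ^ 2 + 2 * A.sN x (antiX J x (V x)) ^ 2 :=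
    (pow_le_pow_left₀ (A.sN_nonneg _ _) h3 2).trans (by
      nlinarith [sq_nonneg (A.sN x (inv11X J x (V x)) - A.sN x (antiX J x (V x)))])
  have h5 := mul_le_mul_of_nonneg_left h4 (show 0 ≤ cb / 2 by positivity)
  nlinarith

/-- Pairing with a smooth form is bounded by the `L²` norm. -/
theorem wedgeInt_test_le {Cb Ba : ℝ} (hCb : 0 ≤ Cb) (hBa : 0 ≤ Ba)
    (hb : ∀ x ∈ A.X, ∀ M M', |A.wedgePt x M M'| ≤ Cb * A.sN x M * A.sN x M')
    {a : Amb N → MN N} (hB : ∀ x ∈ A.X, A.sN x (a x) ≤ Ba)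
    {V : Amb N → MN N} (hV : L2X A V) :
    |A.wedgeInt V a| ≤ Cb * Ba * Real.sqrt (A.vol.real univ) * A.n2 V := by
  have hm : AEStronglyMeasurable (fun x => A.sN x (V x)) A.vol :=
    (aem_sN A aemeasurable_id fun a b => (hV.1 a b).aemeasurable).aestronglyMeasurable
  have hL : MemLp (fun x => A.sN x (V x)) 2 A.vol :=
    (memLp_two_iff_integrable_sq hm).2 (hV.2.congr (Eventually.of_forall fun x => (A.sq_sN _ _).symm))
  have h := Est.abs_integral_mul_le hL (memLp_const (1 : ℝ))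
  simp only [mul_one, one_pow, integral_const, smul_eq_mul, A.sq_sN] at h
  have hi : Integrable (fun x => A.sN x (V x)) A.vol := hL.integrable one_le_two
  calc |A.wedgeInt V a| ≤ ∫ x, |A.wedgePt x (V x) (a x)| ∂A.vol := abs_integral_le_integral_abs
    _ ≤ ∫ x, Cb * Ba * A.sN x (V x) ∂A.vol := by
        refine integral_mono_of_nonneg (Eventually.of_forall fun x => abs_nonneg _)
          (hi.const_mul _) ((ae_mem_X A).mono fun x hx => ?_)
        refine (hb x hx _ _).trans ((mul_le_mul_of_nonneg_left (hB x hx)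
          (mul_nonneg hCb (A.sN_nonneg _ _))).trans_eq (by ring))
    _ ≤ _ := by
        rw [integral_const_mul, mul_assoc (Cb * Ba), mul_comm (Real.sqrt _)]
        exact mul_le_mul_of_nonneg_left ((le_abs_self _).trans h) (mul_nonneg hCb hBa)

/-- Quadratic growth for the bounded distance. -/
theorem growth_rD {D Cρ : ℝ} (hD : 1 ≤ D) {m : Measure (Amb N × Amb N)} [IsFiniteMeasure m]
    (hgrow : ∀ x r, 0 < r → (m {p | ‖x - p.1‖ ≤ r}).toReal ≤ Cρ * r ^ 2) (x : Amb N) (t : ℝ)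
    (ht : 0 < t) : m.real {q | rD D x q.1 ≤ t} ≤ (|Cρ| + m.real univ) * t ^ 2 := by
  set M := m.real univ
  rcases lt_or_ge t D with h | h
  · have e : {q : Amb N × Amb N | rD D x q.1 ≤ t} = {q | ‖x - q.1‖ ≤ t} := by
      ext q
      simp only [rD, Set.mem_ofPred_eq, min_le_iff]
      exact ⟨fun h' => h'.resolve_right (not_le.2 h), Or.inl⟩
    rw [e, measureReal_def]
    exact (hgrow x t ht).trans (mul_le_mul_of_nonneg_right
      ((le_abs_self _).trans (le_add_of_nonneg_right measureReal_nonneg)) (by positivity))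
  · refine (measureReal_mono (Set.subset_univ _)).trans ?_
    calc M = M * 1 := (mul_one _).symm
      _ ≤ M * t ^ 2 := mul_le_mul_of_nonneg_left (one_le_pow₀ (hD.trans h)) measureReal_nonneg
      _ ≤ _ := mul_le_mul_of_nonneg_right (le_add_of_nonneg_left (abs_nonneg _)) (by positivity)

/-- The density bound for the bounded distance, at every point. -/
theorem density_rD {D Cν : ℝ} (hD : 1 ≤ D) {m : Measure (Amb N × Amb N)} [IsFiniteMeasure m]
    (hsupp : ∀ᵐ p ∂m, p ∈ A.unitTan) {ν : Amb N → ℝ} (hν : ∀ x, 0 ≤ ν x)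
    (hdens : ∀ x ∈ A.X, ∀ η, 0 < η → ∀ᶠ r in 𝓝[>] (0 : ℝ),
      (m {p | ‖x - p.1‖ ≤ r}).toReal ≤ (Cν * ν x + η) * r ^ 2)
    (p : Amb N × Amb N) (η : ℝ) (hη : 0 < η) : ∀ᶠ t in 𝓝[>] (0 : ℝ),
      m.real {q | rD D p.1 q.1 ≤ t} ≤ (|Cν| * ν p.1 + η) * t ^ 2 := by
  have hnu := hν p.1
  by_cases hx : p.1 ∈ A.X
  · filter_upwards [hdens p.1 hx η hη, self_mem_nhdsWithin,
      nhdsWithin_le_nhds (Iio_mem_nhds (zero_lt_one.trans_le hD))] with t ht (ht0 : 0 < t) (htD : t < D)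
    have e : {q : Amb N × Amb N | rD D p.1 q.1 ≤ t} = {q | ‖p.1 - q.1‖ ≤ t} := by
      ext q
      simp only [rD, Set.mem_ofPred_eq, min_le_iff]
      exact ⟨fun h' => h'.resolve_right (not_le.2 htD), Or.inl⟩
    rw [e, measureReal_def]
    refine ht.trans (mul_le_mul_of_nonneg_right ?_ (sq_nonneg t))
    exact add_le_add (mul_le_mul_of_nonneg_right (le_abs_self _) hnu) le_rfl
  · obtain ⟨δ, hδ, hball⟩ := Metric.isOpen_iff.1 A.compact.isClosed.isOpen_compl p.1 hx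
    filter_upwards [self_mem_nhdsWithin, nhdsWithin_le_nhds (Iio_mem_nhds
      (lt_min hδ (zero_lt_one.trans_le hD)))] with t (ht0 : 0 < t) (htD : t < min δ D)
    have h0 : m {q | rD D p.1 q.1 ≤ t} = 0 := by
      refine measure_mono_null (t := {q | q ∉ A.unitTan}) (fun q hq hqS => ?_) (ae_iff.1 hsupp)
      have hq' : ‖p.1 - q.1‖ ≤ t := by
        rcases min_le_iff.1 (show min ‖p.1 - q.1‖ D ≤ t from hq) with h | h
        · exact h
        · exact absurd h (not_le.2 (htD.trans_le (min_le_right _ _)))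
      refine hball ?_ hqS.1
      rw [Metric.mem_ball, dist_comm, dist_eq_norm]
      exact hq'.trans_lt (htD.trans_le (min_le_left _ _))
    rw [measureReal_def, h0, ENNReal.toReal_zero]
    positivity


/-- The energy identity with the weight `exp (-n ν)`. -/
theorem weighted_identity {ν : Amb N → ℝ} (hνm : Measurable ν) (hν : ∀ x, 0 ≤ ν x)
    {m : Measure (Amb N × Amb N)} [IsFiniteMeasure m] (hsupp : ∀ᵐ p ∂m, p ∈ A.unitTan)
    {J : Amb N → MN N} {c C ε : ℝ} {G : (Amb N → MN N) → (Amb N → MN N)}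
    {kf : Amb N → Amb N × Amb N → MN N} {w : Amb N → Amb N → ℝ}
    (S : IsSmoothing A J c C ε G kf w) (hε : 0 < ε) {Cb : ℝ} (hCb : 0 ≤ Cb)
    (hb : ∀ x ∈ A.X, ∀ M M', |A.wedgePt x M M'| ≤ Cb * A.sN x M * A.sN x M')
    (hclosed : ∀ g : ℝ → ℝ, ContDiff ℝ ∞ g → g 0 = 0 →
      ∀ a b, IsOneX A b → IsTestX A a → IsDOne A a b →
        ∫ p, g (ν p.1) * (p.2 ⬝ᵥ (a p.1 *ᵥ (J p.1 *ᵥ p.2))) ∂m = 0)
    {V : Amb N → MN N} (iP : Integrable (fun p => vPair A kf V p) m)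
    (hh : (∫ p, ∫ q, A.wedgeInt (fun x => kf x p) (fun x => kf x q) ∂m ∂m)
      + 2 * (∫ p, A.wedgeInt V (fun x => kf x p) ∂m) + A.wedgeInt V V = 0)
    (hid' : ∀ m' : Measure (Amb N × Amb N), IsFiniteMeasure m' → (∀ᵐ p ∂m', p ∈ A.unitTan) →
      (∀ a b, IsOneX A b → IsTestX A a → IsDOne A a b → tcurX J m' a = 0) →
      (∫ p, ∫ q, A.wedgeInt (fun x => kf x p) (fun x => kf x q) ∂m ∂m')
        + (∫ p, A.wedgeInt V (fun x => kf x p) ∂m') = 0)
    (n : ℕ) :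
    (∫ p, Real.exp (-((n : ℝ) * ν p.1)) * ∫ q, qPair A kf p q ∂m ∂m)
      + (∫ p, (1 + Real.exp (-((n : ℝ) * ν p.1))) * vPair A kf V p ∂m) + A.wedgeInt V V = 0 := by
  set g : ℝ → ℝ := fun t => 1 - Real.exp (-((n : ℝ) * t)) with hgdef
  have hg : ContDiff ℝ ∞ g := contDiff_const.sub (contDiff_const.mul contDiff_id).neg.exp
  have hg0 : ∀ p : Amb N × Amb N, 0 ≤ g (ν p.1) ∧ g (ν p.1) ≤ 1 := fun p =>
    ⟨sub_nonneg.2 (Real.exp_le_one_iff.2 (neg_nonpos.2 (mul_nonneg (Nat.cast_nonneg n) (hν _)))),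
      sub_le_self _ (Real.exp_pos _).le⟩
  have hgs : Measurable fun p : Amb N × Amb N => g (ν p.1) :=
    hg.continuous.measurable.comp (hνm.comp measurable_fst)
  set m' := m.withDensity fun p => ENNReal.ofReal (g (ν p.1))
  have hfin : IsFiniteMeasure m' := isFiniteMeasure_withDensity (ne_of_lt (lt_of_le_of_lt
    (lintegral_mono fun p => (ENNReal.ofReal_le_ofReal (hg0 p).2).trans (le_of_eq ENNReal.ofReal_one))
    (by simp)))
  have hint : ∀ f : Amb N × Amb N → ℝ, ∫ p, f p ∂m' = ∫ p, g (ν p.1) * f p ∂m := fun f => by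
    rw [integral_withDensity_eq_integral_toReal_smul hgs.ennreal_ofReal
      (Eventually.of_forall fun _ => ENNReal.ofReal_lt_top)]
    simp only [ENNReal.toReal_ofReal (hg0 _).1, smul_eq_mul]
  have h' := hid' m' hfin ((withDensity_absolutelyContinuous _ _).ae_le hsupp)
    fun a b hb1 ha1 hd1 => by
      rw [tcurX, hint]
      exact hclosed g hg (by simp [hgdef]) a b hb1 ha1 hd1
  have eQ : ∀ᵐ p ∂m, ∫ q, A.wedgeInt (fun x => kf x p) (fun x => kf x q) ∂m =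
      ∫ q, qPair A kf p q ∂m := hsupp.mono fun p hp =>
    integral_congr_ae (hsupp.mono fun q hq => (qPair_eq A kf hp hq).symm)
  have eP : ∀ᵐ p ∂m, A.wedgeInt V (fun x => kf x p) = vPair A kf V p :=
    hsupp.mono fun p hp => (vPair_eq A kf V hp).symm
  rw [integral_congr_ae eQ, integral_congr_ae eP] at hh
  rw [hint, hint, integral_congr_ae (eQ.mono fun p hp => congrArg (g (ν p.1) * ·) hp),
    integral_congr_ae (eP.mono fun p hp => congrArg (g (ν p.1) * ·) hp)] at h'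
  obtain ⟨b, hqb⟩ : ∃ b, ∀ p q, |qPair A kf p q| ≤ b := ⟨_, qPair_bound A S hCb hb hε⟩
  have iQ : Integrable (fun p => ∫ q, qPair A kf p q ∂m) m :=
    Integrable.of_bound
      ((qPair_measurable A S).stronglyMeasurable.integral_prod_right.aestronglyMeasurable)
      (b * m.real univ) (Eventually.of_forall fun p =>
        norm_integral_le_of_norm_le_const (Eventually.of_forall fun q => hqb p q))
  have hgb : ∀ᵐ p ∂m, ‖g (ν p.1)‖ ≤ 1 := Eventually.of_forall fun p => by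
    rw [Real.norm_eq_abs, abs_of_nonneg (hg0 p).1]; exact (hg0 p).2
  have igQ : Integrable (fun p => g (ν p.1) * ∫ q, qPair A kf p q ∂m) m :=
    iQ.bdd_mul (c := 1) hgs.aestronglyMeasurable hgb
  have igP : Integrable (fun p => g (ν p.1) * vPair A kf V p) m :=
    iP.bdd_mul (c := 1) hgs.aestronglyMeasurable hgb
  have e1 : ∫ p, Real.exp (-((n : ℝ) * ν p.1)) * ∫ q, qPair A kf p q ∂m ∂m =
      (∫ p, ∫ q, qPair A kf p q ∂m ∂m) - ∫ p, g (ν p.1) * ∫ q, qPair A kf p q ∂m ∂m := by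
    rw [← integral_sub iQ igQ]
    exact integral_congr_ae (Eventually.of_forall fun p => by simp only [g]; ring)
  have e2 : ∫ p, (1 + Real.exp (-((n : ℝ) * ν p.1))) * vPair A kf V p ∂m =
      2 * (∫ p, vPair A kf V p ∂m) - ∫ p, g (ν p.1) * vPair A kf V p ∂m := by
    rw [← integral_const_mul, ← integral_sub (iP.const_mul 2) igP]
    exact integral_congr_ae (Eventually.of_forall fun p => by simp only [g]; ring)
  rw [e1, e2]
  linarith

/-- Small energy and small invariant part force a small `L²` norm. -/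
theorem n2_tendsto_zero {J : Amb N → MN N} (hJ : IsACS A J) {cb Cb Ca C ε₀ : ℝ} (hcb : 0 < cb)
    (hCb : 0 ≤ Cb) (hε₀ : 0 < ε₀)
    (hb : ∀ x ∈ A.X, ∀ M M', |A.wedgePt x M M'| ≤ Cb * A.sN x M * A.sN x M')
    (hWlow : ∀ x ∈ A.X, ∀ M, Mᵀ = -M →
      cb * A.sqX x (antiX J x M) ≤ A.wedgePt x (antiX J x M) (antiX J x M))
    (hinv0 : ∀ x ∈ A.X, ∀ M M', Mᵀ = -M → M'ᵀ = -M' →
      A.wedgePt x (inv11X J x M) (antiX J x M') = 0)
    (haa : ∀ x ∈ A.X, ∀ M, A.sN x (inv11X J x M) ≤ Ca * A.sN x M)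
    {V : ℝ → Amb N → MN N}
    (hV : ∀ ε, 0 < ε → ε ≤ ε₀ → L2X A (V ε) ∧ (∀ x, (V ε x)ᵀ = -V ε x) ∧
      A.n2 (fun x => inv11X J x (V ε x)) ≤ C * ε * A.n2 (V ε))
    (hfin : ∀ η : ℝ, 0 < η → ∀ᶠ ε in 𝓝[>] (0 : ℝ), A.wedgeInt (V ε) (V ε) ≤ η) :
    Tendsto (fun ε => A.n2 (V ε)) (𝓝[>] 0) (𝓝 0) := by
  rw [Metric.tendsto_nhds]
  intro e he
  have hK : 0 ≤ (cb + Cb) * C ^ 2 := by positivity
  have hεev : ∀ᶠ ε in 𝓝[>] (0 : ℝ), 0 < ε ∧ ε ≤ ε₀ := by
    filter_upwards [self_mem_nhdsWithin, nhdsWithin_le_nhds (Iic_mem_nhds hε₀)] with ε h1 h2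
    exact ⟨h1, h2⟩
  have hεs : ∀ᶠ ε in 𝓝[>] (0 : ℝ), (cb + Cb) * C ^ 2 * ε ^ 2 < cb / 4 := by
    have : Tendsto (fun ε : ℝ => (cb + Cb) * C ^ 2 * ε ^ 2) (𝓝 0) (𝓝 ((cb + Cb) * C ^ 2 * 0 ^ 2)) :=
      (by fun_prop : Continuous _).tendsto _
    refine (this.mono_left nhdsWithin_le_nhds).eventually_lt_const ?_
    rw [zero_pow two_ne_zero, mul_zero]; positivity
  filter_upwards [hεev, hεs, hfin (cb / 8 * e ^ 2) (by positivity)] with ε ⟨h1, h2⟩ h3 h4
  obtain ⟨hV2, hVs, hVinv⟩ := hV ε h1 h2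
  have h5 := n2_le_of_energy A hJ hCb hcb hb hWlow hinv0 haa hV2 hVs
  have h6 : A.n2 (fun x => inv11X J x (V ε x)) ^ 2 ≤ (C * ε * A.n2 (V ε)) ^ 2 :=
    pow_le_pow_left₀ (Real.sqrt_nonneg _) hVinv 2
  have hn0 : 0 ≤ A.n2 (V ε) := Real.sqrt_nonneg _
  rw [Real.dist_eq, sub_zero, abs_of_nonneg hn0]
  set v := A.n2 (V ε)
  have h7 : (cb + Cb) * A.n2 (fun x => inv11X J x (V ε x)) ^ 2 ≤ cb / 4 * v ^ 2 := by
    refine (mul_le_mul_of_nonneg_left h6 (by positivity)).trans ?_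
    calc (cb + Cb) * (C * ε * v) ^ 2 = (cb + Cb) * C ^ 2 * ε ^ 2 * v ^ 2 := by ring
      _ ≤ _ := mul_le_mul_of_nonneg_right h3.le (sq_nonneg v)
  have h8 : cb * v ^ 2 ≤ cb * (e ^ 2 / 2) := by linarith
  have h9 : v ^ 2 < e ^ 2 := by
    have := le_of_mul_le_mul_left h8 hcb
    linarith [pow_pos he 2]
  exact lt_of_pow_lt_pow_left₀ 2 he.le h9

/-- An extension by zero contradicts a taming form. -/
theorem false_of_kills {J : Amb N → MN N} (hJ : IsACS A J) {m : Measure (Amb N × Amb N)}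
    [IsFiniteMeasure m] (hm0 : m ≠ 0) (hsupp : ∀ᵐ p ∂m, p ∈ A.unitTan) {om : Amb N → MN N}
    (hom : IsClosedX A om) (htom : TamesX A J om) (h : tcurX J m om = 0) : False := by
  have hcO : ContinuousOn (fun z : Amb N × Amb N => z.2 ⬝ᵥ (om z.1 *ᵥ (J z.1 *ᵥ z.2))) A.unitTan :=
    continuousOn_iff_continuous_domRestrict.2 (Atlas.cont_line (A := A) hJ hom.toIsTestX)
  obtain ⟨δ, hδ, hδle⟩ := A.isCompact_unitTan.exists_forall_le' (a := (0 : ℝ)) hcO
    fun z hz => line_pos A hJ htom hz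
  obtain ⟨bd, hbd⟩ := A.isCompact_unitTan.exists_bound_of_continuousOn hcO
  have hline : Integrable (fun z : Amb N × Amb N => z.2 ⬝ᵥ (om z.1 *ᵥ (J z.1 *ᵥ z.2))) m := by
    refine Integrable.of_bound ?_ bd (hsupp.mono hbd)
    rw [← Measure.restrict_eq_self_of_ae_mem hsupp]
    exact hcO.aestronglyMeasurable A.isCompact_unitTan.isClosed.measurableSet
  have hpos := integral_mono_ae (integrable_const δ) hline (hsupp.mono hδle)
  rw [integral_const, smul_eq_mul] at hpos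
  have hM : 0 < m.real univ :=
    ENNReal.toReal_pos (Measure.measure_univ_ne_zero.2 hm0) (measure_ne_top _ _)
  have h' : ∫ p, p.2 ⬝ᵥ (om p.1 *ᵥ (J p.1 *ᵥ p.2)) ∂m = 0 := h
  have := mul_pos hM hδ
  linarith

/-- Tamed implies compatible for embedded atlases, from the four analytic modules. -/
theorem geo_of_modules (hDual : DualStmt) (hExt : ExtStmt) (hSm : SmoothStmt)
    (hAp : AprioriStmt) (hCl : ClosedStmt) : GeoStmt := by
  intro N K A J hJ htame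
  obtain ⟨om, hom, htom⟩ := htame
  by_contra hno
  obtain ⟨m, hm⟩ := hDual A J hJ hno
  have := hm.finite
  obtain ⟨R, C₀, hR⟩ := hExt A J m hJ hm
  obtain ⟨cb, Cb', hcb, -, -, hvol, -, hWle, hWlow, hinv0, -⟩ := basicStmt A J hJ
  obtain ⟨ρ, Cρ, hρ2, -, -, hρR, hgrow, -, -⟩ := hAp A J m R C₀ hJ hm hR
  obtain ⟨ν, Cν, hνm, hν, hdens, hclosed⟩ := hCl A J m R C₀ hJ hm hR
  obtain ⟨cs, C, ε₀, -, hε₀, G, kf, w, hGlim, hGS⟩ := hSm A J m R C₀ hJ hm hR
  choose V hV2 hVs hVR hVinv hid hid' hVρ using fun (ε : ℝ) (h1 : 0 < ε) (h2 : ε ≤ ε₀) =>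
    (hGS ε h1 h2).2
  obtain ⟨Ca, hCa, haa⟩ := Atlas.exists_anti_bound (A := A) hJ
  set Cb := |Cb'|
  have hb : ∀ x ∈ A.X, ∀ M M', |A.wedgePt x M M'| ≤ Cb * A.sN x M * A.sN x M' := fun x hx M M' => by
    refine (hWle x hx M M').trans ?_
    rw [A.sqrt_sqX, A.sqrt_sqX]
    exact mul_le_mul_of_nonneg_right (mul_le_mul_of_nonneg_right (le_abs_self _) (A.sN_nonneg _ _))
      (A.sN_nonneg _ _)
  have hsupp : ∀ᵐ p ∂m, p ∈ A.unitTan := hm.supp
  -- the bounded distance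
  set D : ℝ := 1
  have hD : 1 ≤ D := le_rfl
  have hD0 : 0 ≤ D := zero_le_one.trans hD
  have G4 := geom_rD A hD (abs_nonneg Cb') fun x r hr =>
    (hvol x r hr).trans (mul_le_mul_of_nonneg_right (le_abs_self Cb') (by positivity))
  set M := m.real univ
  set B := |Cρ| + M
  have hB : ∀ x t, 0 < t → m.real {q | rD D x q.1 ≤ t} ≤ B * t ^ 2 := growth_rD hD hgrow
  have hB0 : 0 ≤ B := add_nonneg (abs_nonneg _) measureReal_nonneg
  set nu : Amb N × Amb N → ℝ := fun p => ν p.1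
  have hnum : Measurable nu := hνm.comp measurable_fst
  have hd : ∀ p η, 0 < η → ∀ᶠ t in 𝓝[>] (0 : ℝ),
      m.real {q | rD D p.1 q.1 ≤ t} ≤ (|Cν| * nu p + η) * t ^ 2 :=
    density_rD A hD hsupp (fun x => (hν x).1) hdens
  -- the smoothed scalar density of the extension
  set u : Amb N → ℝ := fun y => A.sN y (ρ y)
  have hum : AEStronglyMeasurable u A.vol :=
    (aem_sN A aemeasurable_id fun a b => (hρ2.1 a b).aemeasurable).aestronglyMeasurable
  have hu : MemLp u 2 A.vol := (memLp_two_iff_integrable_sq hum).2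
    (hρ2.2.congr (Eventually.of_forall fun x => (A.sq_sN _ _).symm))
  have hu0 : ∀ x, 0 ≤ u x := fun x => A.sN_nonneg _ _
  have hsmall := Est.tendsto_smoothed_pair G4 measurable_fst hB0 hB hu hu0
  have hU0 : ∀ ε x, 0 ≤ Est.conv3 A.vol (rD D) ε u x := fun ε x =>
    integral_nonneg fun y => mul_nonneg (Est.ker_nonneg _ _ _) (hu0 y)
  have hU : ∀ ε : ℝ, 0 < ε → Integrable (Est.conv3 A.vol (rD D) ε u) A.vol :=
    fun ε hε => (Est.conv3_sq G4 hε hu).1.integrable one_le_two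
  have hconv : ∀ ε : ℝ, 0 < ε → ∀ x, 0 ≤ A.conv ε u x ∧ A.conv ε u x ≤ Est.conv3 A.vol (rD D) ε u x :=
    fun ε hε x => by
    refine ⟨integral_nonneg fun y => mul_nonneg (kern_nonneg' _ _) (hu0 y),
      integral_mono_of_nonneg (Eventually.of_forall fun y => mul_nonneg (kern_nonneg' _ _) (hu0 y))
        ?_ (Eventually.of_forall fun y =>
          mul_le_mul_of_nonneg_right (kern_le_ker3 hε hD0 x y) (hu0 y))⟩
    exact (hu.integrable one_le_two).bdd_mul (c := 1 / ε ^ 4)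
      ((G4.meas_ker measurable_id 3 ε).of_uncurry_left).aestronglyMeasurable
      (Eventually.of_forall fun y => by
        rw [Real.norm_eq_abs, abs_of_nonneg (Est.ker_nonneg _ _ _)]; exact Est.ker_le 3 hε _)
  -- the families
  set Q : ℝ → Amb N × Amb N → Amb N × Amb N → ℝ := fun ε => qPair A (kf ε)
  set Vt : ℝ → Amb N → MN N := fun ε =>
    if h : 0 < ε ∧ ε ≤ ε₀ then V ε h.1 h.2 else 0
  have hVt : ∀ ε (h1 : 0 < ε) (h2 : ε ≤ ε₀), Vt ε = V ε h1 h2 := fun ε h1 h2 =>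
    dif_pos ⟨h1, h2⟩
  set S : ℝ → ℝ := fun ε => A.wedgeInt (Vt ε) (Vt ε)
  set P : ℝ → Amb N × Amb N → ℝ := fun ε => vPair A (kf ε) (Vt ε)
  set wt : ℕ → Amb N × Amb N → ℝ := fun n p => Real.exp (-((n : ℝ) * nu p))
  set X : ℕ → ℝ → ℝ := fun n ε => ∫ p, (1 + wt n p) * P ε p ∂m
  have hεev : ∀ᶠ ε in 𝓝[>] (0 : ℝ), 0 < ε ∧ ε ≤ ε₀ := by
    filter_upwards [self_mem_nhdsWithin, nhdsWithin_le_nhds (Iic_mem_nhds hε₀)] with ε h1 h2
    exact ⟨h1, h2⟩
  have hwt : ∀ n p, 0 ≤ wt n p ∧ wt n p ≤ 1 := fun n p => ⟨(Real.exp_pos _).le,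
    Real.exp_le_one_iff.2 (neg_nonpos.2 (mul_nonneg (Nat.cast_nonneg n) (hν p.1).1))⟩
  have hP : ∀ ε : ℝ, 0 < ε → ε ≤ ε₀ → Integrable (P ε) m ∧
      ∀ f : Amb N × Amb N → ℝ, (∀ p, |f p| ≤ 2) → |∫ p, f p * P ε p ∂m| ≤ 4 * Cb * Ca * C ^ 2 *
        ∫ x, (ε * ∫ p, Est.ker 3 ε (rD D x p.1) ∂m) * Est.conv3 A.vol (rD D) ε u x ∂A.vol := by
    intro ε h1 h2
    simp only [P, hVt ε h1 h2]
    refine vPair_bound A (hGS ε h1 h2).1 (abs_nonneg _) (zero_le_one.trans hCa) hD0 h1 hb hinv0 haa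
      (hV2 ε h1 h2).1 (hVs ε h1 h2) (hU ε h1) (hU0 ε) ?_
    filter_upwards [hVρ ε h1 h2 ρ hρ2 hρR] with x ⟨hx1, hx2⟩
    simp only [A.sqrt_sqX] at hx1 hx2
    obtain ⟨hc0, hc1⟩ := hconv ε h1 x
    refine ⟨hx1.trans ?_, hx2.trans ?_⟩
    · exact (mul_le_mul_of_nonneg_right (le_abs_self C) hc0).trans
        (mul_le_mul_of_nonneg_left hc1 (abs_nonneg C))
    · exact (mul_le_mul_of_nonneg_right (mul_le_mul_of_nonneg_right (le_abs_self C) h1.le) hc0).trans
        (mul_le_mul_of_nonneg_left hc1 (mul_nonneg (abs_nonneg C) h1.le))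
  have hX : ∀ n : ℕ, 0 < n → Tendsto (X n) (𝓝[>] 0) (𝓝 0) := fun n _ => by
    refine squeeze_zero_norm' ?_
      (by simpa using hsmall.const_mul (4 * Cb * Ca * C ^ 2))
    filter_upwards [hεev] with ε ⟨h1, h2⟩
    rw [Real.norm_eq_abs]
    refine (hP ε h1 h2).2 _ fun p => ?_
    obtain ⟨a1, a2⟩ := hwt n p
    rw [abs_of_nonneg (by linarith)]
    linarith
  have hQ : ∀ᶠ ε in 𝓝[>] (0 : ℝ), Measurable (Function.uncurry (Q ε)) ∧
      (∃ b, ∀ p q, |Q ε p q| ≤ b) ∧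
      ∀ p q, -(|C| * Est.neg3 ε (rD D p.1 q.1)) ≤ Q ε p q := by
    filter_upwards [hεev] with ε ⟨h1, h2⟩
    exact ⟨qPair_measurable A (hGS ε h1 h2).1,
      ⟨_, qPair_bound A (hGS ε h1 h2).1 (abs_nonneg _) hb h1⟩,
      qPair_low A (hGS ε h1 h2).1 hD0 h1⟩
  have hident : ∀ n : ℕ, 0 < n → ∀ᶠ ε in 𝓝[>] (0 : ℝ),
      (∫ p, wt n p * ∫ q, Q ε p q ∂m ∂m) + X n ε + S ε = 0 := fun n _ => by
    filter_upwards [hεev] with ε ⟨h1, h2⟩
    have iP := (hP ε h1 h2).1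
    simp only [P, hVt ε h1 h2] at iP
    simp only [X, S, P, Q, hVt ε h1 h2]
    exact weighted_identity A hνm (fun x => (hν x).1) hsupp (hGS ε h1 h2).1 h1 (abs_nonneg _) hb
      hclosed iP (hid ε h1 h2) (hid' ε h1 h2) n
  have hrm : Measurable (Function.uncurry fun p q : Amb N × Amb N => rD D p.1 q.1) :=
    ((continuous_fst.comp continuous_fst).sub (continuous_fst.comp continuous_snd)).norm.min
      continuous_const |>.measurable
  have hfin := Est.final hrm (fun p q => G4.nonneg _ _) (fun p q => G4.le_D _ _)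
    (abs_nonneg Cν) (fun p => hB p.1) hnum (Bν := |Cν|)
    (fun p => ⟨(hν p.1).1, (hν p.1).2.trans (le_abs_self _)⟩) hd (abs_nonneg C) hQ hX hident
  -- the smoothed extension tends to zero
  have hn2 : Tendsto (fun ε => A.n2 (Vt ε)) (𝓝[>] 0) (𝓝 0) :=
    n2_tendsto_zero A hJ hcb (abs_nonneg Cb') hε₀ hb hWlow hinv0 (fun x hx M => (haa x hx M).2)
      (fun ε h1 h2 => by rw [hVt ε h1 h2]; exact ⟨hV2 ε h1 h2, hVs ε h1 h2, hVinv ε h1 h2⟩) hfin
  have hR0 : ∀ a, IsTestX A a → R a = 0 := fun a ha => by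
    obtain ⟨Ba, hBa, hBa'⟩ := exists_test_bound A ha
    refine tendsto_nhds_unique (hGlim a ha) (squeeze_zero_norm' ?_
      (by simpa using hn2.const_mul (Cb * Ba * Real.sqrt (A.vol.real univ))))
    filter_upwards [hεev] with ε ⟨h1, h2⟩
    rw [hVR ε h1 h2 a ha, hVt ε h1 h2, Real.norm_eq_abs]
    exact wedgeInt_test_le A (abs_nonneg _) hBa hb hBa' (hV2 ε h1 h2)
  -- the taming form contradicts this
  have h := hR.kills om hom
  rw [hR0 om hom.toIsTestX, add_zero] at h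
  exact false_of_kills A hJ hm.nonzero hsupp hom htom h

universe u

/-- The conjecture, from the modules. -/
theorem conjecture_of_modules (hB : BridgeStmt.{u}) (hDual : DualStmt) (hExt : ExtStmt)
    (hSm : SmoothStmt) (hAp : AprioriStmt) (hCl : ClosedStmt) : Conjecture.{u} :=
  hB (geo_of_modules hDual hExt hSm hAp hCl)

end Vale.Agent.P204.General
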